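import Vale.Agent.P184.R4.FMain

namespace Vale.Agent.Results.P184.BassRapidDecay

open Vale.Agent.P184.Rd

universe u v

/-- New cases of the `ℓ¹`-Bass conjecture and of the strong `ℓ¹`-Bass conjecture, which deals with
the Chern character of the algebra of the rapidly decaying functions in cyclic homology. -/
theorem result :
    (∀ (G : Type u) [Group G], (Group.FG G → PolyInf G → RapBass G) ∧
      (Nice G ∨ LimBass.{u, v} G → L1Bass G) ∧ (∀ x : G, Mild x → VanishesAt x) ∧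
      (AlmostAmen G → Nice G) ∧ ∀ x : G, PolyTame x →
        ∃ L₀ : G → ℝ, IsLen L₀ ∧ ∀ L, IsLen L → (∃ c : ℝ, ∀ g, L₀ g ≤ c * L g) →
          RapEven L x ∧ RapOdd L x) ∧
    (∀ (G : Type u) [Group G] (ι : Type v) (H : ι → Subgroup G), IsRelHyp H →
      ((∀ k, PolyInf (H k)) → PolyInf G) ∧ ((∀ k, MildInf (H k)) → MildInf G) ∧
      ((∀ k, Nice (H k)) → Nice G)) ∧
    (∀ (G : Type u) [Group G] (X : Type v) [MetricSpace X] [MulAction G X],
      Cat0Action G X → Nice G ∧ PolyInf G) ∧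
    (∀ (G : Type u) [Group G] (x : G), (PolyNilpotent x ∨ VirtUnipotent x ∨ LocCharged x →
      PolyLoc x) ∧ (∀ (K : Type v) [Field K], LinDetected x K → PolyLoc x) ∧
      (PolyLoc x → Mild x)) ∧
    ∀ (G : Type u) [Group G] (K : Type v) [Group K], (Nice G → Nice K → Nice (G × K)) ∧
      (PolyInf G → PolyInf K → PolyInf (G × K)) ∧
      ∀ (x : G) (y : K), Image x y → (PolyLoc y → PolyLoc x) ∧ (Mild y → Mild x) :=
  ⟨fun _ _ => ⟨rapBass, fun h => h.elim l1Bass_of_nice limBass, fun _ => vanishesAt_of_mild,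
      nice_of_almostAmen, fun _ => rapAt⟩,
    fun _ _ _ _ => relHyp, fun _ _ _ _ _ => cat,
    fun _ _ _ => ⟨polyLoc_of, fun _ _ => polyLoc_of_lin, mild_of_polyLoc⟩,
    fun _ _ _ _ => ⟨nice_prod, polyInf_prod, fun _ _ => image⟩⟩

end Vale.Agent.Results.P184.BassRapidDecay
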