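import Vale.Agent.P184.R3.UMain

namespace Vale.Agent.Results.P184.BassUnion

open Vale.Agent.P184.Un

universe u v

/-- New cases of the `ℓ¹`-Bass conjecture and of its stronger form in cyclic homology in all
degrees. -/
theorem result :
    (∀ (G : Type u) [Group G], (Nice G ∨ LimBass.{u, v} G → L1Bass G) ∧
      (∀ x : G, Mild x → VanishesAt x) ∧ (AlmostAmen G → Nice G) ∧
      (Group.FG G → TameInf G → HomBass G) ∧ ∀ x : G, TameAt x →
        ∃ L₀ : G → ℝ, IsLen L₀ ∧ ∀ L, IsLen L → (∃ c : ℝ, ∀ g, L₀ g ≤ c * L g) →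
          EvenBdy L x ∧ OddBdy L x) ∧
    (∀ (G : Type u) [Group G] (ι : Type v) (H : ι → Subgroup G), IsRelHyp H →
      ((∀ k, MildInf (H k)) → MildInf G) ∧ ((∀ k, Nice (H k)) → Nice G) ∧
      ((∀ k, TameInf (H k)) → TameInf G)) ∧
    (∀ (G : Type u) [Group G] (X : Type v) [MetricSpace X] [MulAction G X],
      Cat0Action G X → Nice G) ∧
    (∀ (G : Type u) [Group G] (x : G), (PolyNilpotent x ∨ VirtUnipotent x ∨ LocCharged x →
      LocTame x) ∧ ∀ (K : Type v) [Field K], LinDetected x K → Mild x) ∧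
    ∀ (G : Type u) [Group G] (K : Type v) [Group K], (Nice G → Nice K → Nice (G × K)) ∧
      ∀ (x : G) (y : K), Image x y → (LocTame y → LocTame x) ∧ (Mild y → Mild x) :=
  ⟨fun _ _ => ⟨fun h => h.elim l1Bass_of_nice limBass, fun _ => vanishesAt_of_mild,
      nice_of_almostAmen, homBass, fun _ => tameBdy⟩,
    fun _ _ _ _ => relHyp, fun _ _ _ _ _ => nice_of_cat,
    fun _ _ _ => ⟨loc_of, fun _ _ h => mild_of (Or.inr h)⟩,
    fun _ _ _ _ => ⟨nice_prod, fun _ _ => image⟩⟩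

end Vale.Agent.Results.P184.BassUnion
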